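import Vale.Agent.P251.M.Kleisli
import Vale.Agent.P251.T.Axioms

/-!
# P241, block KR: bases of `K`-homology, `K` an associative (non-commutative) graded field

* `lext x : K ⊗ A ⟶ K ⊗ X` : the left `K`-linear extension of `x : A ⟶ K ⊗ X` (`= FM.bind x`);
* `KBasis K X ι` : a finite basis `x i : 𝟙⟦e i⟧ ⟶ K ⊗ X` of the left `π_* K`-module `π_* (K ⊗ X)`;
* `GField K q` : `π_* K` is a graded field, concentrated in the degrees which are divisible by
  the even number `q` (`q = 0` if `π_* K` is concentrated in degree `0`), and graded commutative;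
* `KBasis.ev`, `KBasis.od` : the number of elements of even and of odd degree.
-/

open CategoryTheory MonoidalCategory Limits Pretriangulated MonObj
open Vale.Agent.P251.T Vale.Agent.P251.M

universe v u

set_option linter.unusedSectionVars false

namespace Vale.Agent.P241.KR

variable {T : Type u} [Category.{v} T] [Preadditive T] [HasZeroObject T]
    [HasShift T ℤ] [∀ n : ℤ, (shiftFunctor T n).Additive] [Pretriangulated T]
    [MonoidalCategory T] [SymmetricCategory T] [TensorTriangulated T]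

/-- The left `K`-linear extension `K ⊗ A ⟶ K ⊗ X` of `x : A ⟶ K ⊗ X`. -/
abbrev lext {K : T} [MonObj K] {A X : T} (x : A ⟶ K ⊗ X) : K ⊗ A ⟶ K ⊗ X := FM.bind x

/-- A finite basis of the left `π_* K`-module `π_* (K ⊗ X)`. -/
structure KBasis (K X : T) [MonObj K] (ι : Type) [Fintype ι] where
  /-- the degrees -/
  e : ι → ℤ
  /-- the basis -/
  x (i : ι) : (𝟙_ T)⟦e i⟧ ⟶ K ⊗ X
  bij (j : ℤ) : Function.Bijective
    fun c : (∀ i, ((𝟙_ T)⟦j⟧ ⟶ K ⊗ (𝟙_ T)⟦e i⟧)) => ∑ i, c i ≫ lext (x i)

/-- The number of elements of even degree. -/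
noncomputable def KBasis.ev {K X : T} [MonObj K] {ι : Type} [Fintype ι] (b : KBasis K X ι) : ℕ :=
  Nat.card {i // Even (b.e i)}

/-- The number of elements of odd degree. -/
noncomputable def KBasis.od {K X : T} [MonObj K] {ι : Type} [Fintype ι] (b : KBasis K X ι) : ℕ :=
  Nat.card {i // Odd (b.e i)}

/-- `π_* K` is a graded field which is concentrated in the degrees divisible by the even number
`q` and non-zero in these degrees. -/
structure GField (K : T) [MonObj K] (q : ℕ) : Prop where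
  even : Even q
  ne : η[K] ≠ 0
  /-- the homotopy is concentrated in the degrees divisible by `q` -/
  van (m : ℤ) (hm : ¬ (q : ℤ) ∣ m) (f : (𝟙_ T)⟦m⟧ ⟶ K) : f = 0
  /-- there is a non-zero element of degree `q` -/
  per : ∃ g : (𝟙_ T)⟦(q : ℤ)⟧ ⟶ K, g ≠ 0
  /-- the non-zero homogeneous elements are invertible: right multiplication by `f` is an
  isomorphism -/
  inv (m : ℤ) (f : (𝟙_ T)⟦m⟧ ⟶ K) (hf : f ≠ 0) : IsIso (K ◁ f ≫ μ[K])
  /-- graded commutativity -/
  comm (a b : ℤ) (f : (𝟙_ T)⟦a⟧ ⟶ K) (g : (𝟙_ T)⟦b⟧ ⟶ K) :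
    (β_ _ _).hom ≫ (g ⊗ₘ f) ≫ μ[K] = (f ⊗ₘ g) ≫ μ[K]

end Vale.Agent.P241.KR
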