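import Vale.Agent.P241.KR.Shift

/-!
# P241, block KR: bases of `K`-homology over a graded field `K`

* `KBasis.exists_equiv`, `KBasis.ev_eq`, `KBasis.od_eq`, `KBasis.card_eq` : invariance;
* `HasBas K X` : `K_* X` has a finite basis; closed under isomorphisms, shifts, extensions, two of
  three, retracts; spheres;
* `KBasis.short`, `KBasis.inj`, `KBasis.zeroMap`, `KBasis.any` : bases in distinguished triangles
  with `K_* f` injective, zero, arbitrary;
* `KBasis.isEmpty_of_zero`, `KBasis.zero_of_isEmpty` : `K_* X = 0` iff the basis is empty.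
-/

open CategoryTheory MonoidalCategory Limits Pretriangulated MonObj
open Vale.Agent.P251.T Vale.Agent.P251.M

universe v u

set_option linter.unusedSectionVars false

namespace Vale.Agent.P241.KR

variable {T : Type u} [Category.{v} T] [Preadditive T] [HasZeroObject T]
    [HasShift T ℤ] [∀ n : ℤ, (shiftFunctor T n).Additive] [Pretriangulated T]
    [MonoidalCategory T] [SymmetricCategory T] [TensorTriangulated T]

variable {K : T} [MonObj K] {q : ℕ}

/-! ### Finite type and existence of bases -/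

/-- `K_* X` has a finite basis -/
def HasBas (K X : T) [MonObj K] : Prop :=
  ∃ (ι : Type) (_ : Fintype ι), Nonempty (KBasis K X ι)

theorem KBasis.hasBas {X : T} {ι : Type} [Fintype ι] (b : KBasis K X ι) : HasBas K X :=
  ⟨ι, inferInstance, ⟨b⟩⟩

theorem KBasis.ft (h : GField K q) {X : T} {ι : Type} [Fintype ι] (b : KBasis K X ι) :
    FT (Sf K) q (FM.of X) where
  fin j := h.gf.finite_of_bas b.isBas j
  supp hq := by
    classical
    subst hq
    refine ⟨∑ i, (b.e i).natAbs, fun j hj f => ?_⟩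
    obtain ⟨c, hc⟩ := (b.isBas j).2 f
    change ∑ i, c i ≫ mkS (b.x i) = f at hc
    rw [← hc]
    refine Finset.sum_eq_zero fun i _ => ?_
    have h1 : (b.e i).natAbs ≤ ∑ i, (b.e i).natAbs :=
      Finset.single_le_sum (f := fun i => (b.e i).natAbs) (fun _ _ => Nat.zero_le _)
        (Finset.mem_univ i)
    have h2 : ¬ ((0 : ℕ) : ℤ) ∣ j - b.e i := by
      intro h3
      rw [Nat.cast_zero, zero_dvd_iff, sub_eq_zero] at h3
      rw [h3, Int.abs_eq_natAbs] at hj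
      exact absurd h1 (by
        have := Int.ofNat_lt.1 hj
        omega)
    rw [h.gf.van j _ h2 (c i), zero_comp]

theorem GField.hasBas_iff (h : GField K q) {X : T} :
    HasBas K X ↔ FT (Sf K) q (FM.of X) := by
  constructor
  · rintro ⟨ι, _, ⟨b⟩⟩
    exact b.ft h
  · intro hX
    obtain ⟨ι, hι, e, x, hb⟩ := h.gf.exists_bas hX
    exact ⟨ι, hι, ⟨KBasis.ofIsBas hb⟩⟩

theorem HasBas.of_iso {X Y : T} (h : HasBas K X) (α : X ≅ Y) : HasBas K Y := by
  obtain ⟨ι, _, ⟨b⟩⟩ := h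
  exact (b.ofIso α).hasBas

theorem HasBas.shift {X : T} (h : HasBas K X) (m : ℤ) : HasBas K (X⟦m⟧) := by
  obtain ⟨ι, _, ⟨b⟩⟩ := h
  exact (b.shift m).hasBas

theorem HasBas.of_shift {X : T} (m : ℤ) (h : HasBas K (X⟦m⟧)) : HasBas K X :=
  (h.shift (-m)).of_iso ((shiftFunctorCompIsoId T m (-m) (by ring)).app X)

theorem HasBas.sphere (m : ℤ) : HasBas K ((𝟙_ T)⟦m⟧) := (KBasis.sphere K m).hasBas

theorem HasBas.unit : HasBas K (𝟙_ T) := (KBasis.unit K).hasBas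

theorem HasBas.zero {X : T} (h : IsZero X) : HasBas K X :=
  (KBasis.empty (ι := Empty) fun _ f =>
    ((tensorLeft K).map_isZero h).eq_of_tgt f 0).hasBas

section triangles

variable {X Y Z : T} {f : X ⟶ Y} {g : Y ⟶ Z} {δ : Z ⟶ X⟦(1 : ℤ)⟧}

/-- extensions -/
theorem HasBas.mid (h : GField K q) (hT : Triangle.mk f g δ ∈ distTriang T)
    (hX : HasBas K X) (hZ : HasBas K Z) : HasBas K Y := by
  rw [h.hasBas_iff] at *
  exact h.gf.ft_of_ex (ex_of_dist hT) hX hZ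

/-- cones -/
theorem HasBas.cone (h : GField K q) (hT : Triangle.mk f g δ ∈ distTriang T)
    (hX : HasBas K X) (hY : HasBas K Y) : HasBas K Z :=
  HasBas.mid h (rot_of_distTriang _ hT) hY (hX.shift 1)

/-- fibres -/
theorem HasBas.fib (h : GField K q) (hT : Triangle.mk f g δ ∈ distTriang T)
    (hY : HasBas K Y) (hZ : HasBas K Z) : HasBas K X :=
  (HasBas.mid h (rot_of_distTriang _ (rot_of_distTriang _ hT)) hZ (hY.shift 1)).of_shift 1

/-- retracts -/
theorem HasBas.retract (h : GField K q) (i : X ⟶ Y) (r : Y ⟶ X) (hir : i ≫ r = 𝟙 X)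
    (hY : HasBas K Y) : HasBas K X := by
  rw [h.hasBas_iff] at *
  have hinj : ∀ (j : ℤ) (x : Sf K j ⟶ FM.of X), x ≫ frM K i = 0 → x = 0 := by
    intro j x hx
    rw [comp_frM_eq_zero] at hx
    apply FM.hom_ext
    have h1 : (FM.Hom.hom x ≫ K ◁ i) ≫ K ◁ r = FM.Hom.hom x := by
      rw [Category.assoc, ← MonoidalCategory.whiskerLeft_comp, hir,
        MonoidalCategory.whiskerLeft_id, Category.comp_id]
    rw [← h1, hx, zero_comp]
    rfl
  constructor
  · intro j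
    let := h.gf.dring j
    have := hY.fin j
    exact Module.Finite.of_injective (postL (Sf K) j (frM K i))
      ((injective_iff_map_eq_zero _).2 (hinj j))
  · intro hq
    obtain ⟨N, hN⟩ := hY.supp hq
    exact ⟨N, fun j hj x => hinj j x (hN j hj _)⟩

end triangles

/-! ### Invariance -/

section inv

variable {X : T} {ι κ : Type} [Fintype ι] [Fintype κ]

theorem KBasis.exists_equiv (h : GField K q) (b : KBasis K X ι) (b' : KBasis K X κ) :
    ∃ σ : ι ≃ κ, ∀ i, (q : ℤ) ∣ b.e i - b'.e (σ i) :=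
  h.gf.exists_equiv b.isBas b'.isBas

theorem KBasis.ev_eq (h : GField K q) (b : KBasis K X ι) (b' : KBasis K X κ) :
    b.ev = b'.ev := by
  obtain ⟨σ, hσ⟩ := b.exists_equiv h b'
  exact (evc_eq_of_equiv h.even σ hσ).1

theorem KBasis.od_eq (h : GField K q) (b : KBasis K X ι) (b' : KBasis K X κ) :
    b.od = b'.od := by
  obtain ⟨σ, hσ⟩ := b.exists_equiv h b'
  exact (evc_eq_of_equiv h.even σ hσ).2

theorem KBasis.ev_add_od (b : KBasis K X ι) : b.ev + b.od = Fintype.card ι := by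
  rw [← Nat.card_eq_fintype_card]
  exact evc_add_odc b.e

theorem KBasis.card_eq (h : GField K q) (b : KBasis K X ι) (b' : KBasis K X κ) :
    Fintype.card ι = Fintype.card κ := by
  rw [← b.ev_add_od, ← b'.ev_add_od, b.ev_eq h b', b.od_eq h b']

theorem KBasis.rk_eq (h : GField K q) (b : KBasis K X ι) (j : ℤ) :
    rk (Sf K) (FM.of X) j = Nat.card {i // (q : ℤ) ∣ j - b.e i} := h.gf.card_eq b.isBas j

theorem KBasis.isEmpty_of_zero (h : GField K q) (b : KBasis K X ι)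
    (h0 : ∀ (j : ℤ) (f : (𝟙_ T)⟦j⟧ ⟶ K ⊗ X), f = 0) : IsEmpty ι := by
  classical
  by_contra hne
  rw [not_isEmpty_iff] at hne
  obtain ⟨i⟩ := hne
  have h1 := (b.isBas (b.e i)).1 (a₁ := Pi.single i (𝟙 (Sf K (b.e i)))) (a₂ := 0)
    (FM.hom_ext (by
      rw [h0 _ (FM.Hom.hom _)]
      exact (h0 _ (FM.Hom.hom _)).symm))
  have h2 := congrFun h1 i
  rw [Pi.single_eq_same] at h2
  exact h.gf.ne _ h2

theorem KBasis.zero_of_isEmpty [IsEmpty ι] (b : KBasis K X ι) (j : ℤ)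
    (f : (𝟙_ T)⟦j⟧ ⟶ K ⊗ X) : f = 0 := by
  obtain ⟨c, hc⟩ := (b.bij j).2 f
  rw [← hc]
  simp

end inv

/-! ### Bases in distinguished triangles -/

section dist

variable {X Y Z : T} {f : X ⟶ Y} {g : Y ⟶ Z} {δ : Z ⟶ X⟦(1 : ℤ)⟧}
  {ι κ ζ : Type} [Fintype ι] [Fintype κ] [Fintype ζ]

/-- `K_* f = 0` -/
def KZero (K : T) [MonObj K] {X Y : T} (f : X ⟶ Y) : Prop :=
  ∀ (j : ℤ) (x : (𝟙_ T)⟦j⟧ ⟶ K ⊗ X), x ≫ K ◁ f = 0

/-- `K_* f` is injective -/
def KInj (K : T) [MonObj K] {X Y : T} (f : X ⟶ Y) : Prop :=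
  ∀ (j : ℤ) (x : (𝟙_ T)⟦j⟧ ⟶ K ⊗ X), x ≫ K ◁ f = 0 → x = 0

/-- classes in the homology of a shift -/
theorem exists_of_shift (m j : ℤ) (x : (𝟙_ T)⟦j⟧ ⟶ K ⊗ X⟦m⟧) :
    ∃ y : (𝟙_ T)⟦j - m⟧ ⟶ K ⊗ X,
      x = (shiftFunctorAdd' T (j - m) m j (by ring)).hom.app (𝟙_ T) ≫ y⟦m⟧' ≫
        ((tensorLeft K).commShiftIso m).inv.app X := by
  let y' : ((𝟙_ T)⟦j - m⟧)⟦m⟧ ⟶ (K ⊗ X)⟦m⟧ :=
    (shiftFunctorAdd' T (j - m) m j (by ring)).inv.app (𝟙_ T) ≫ x ≫
      ((tensorLeft K).commShiftIso m).hom.app X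
  refine ⟨(shiftFunctor T m).preimage y', ?_⟩
  rw [Functor.map_preimage]
  simp [y']

theorem shift_comp_whisker (m : ℤ) {j : ℤ} (y : (𝟙_ T)⟦j⟧ ⟶ K ⊗ X) (f : X ⟶ Y) :
    (y⟦m⟧' ≫ ((tensorLeft K).commShiftIso m).inv.app X) ≫ K ◁ (f⟦m⟧') =
      (y ≫ K ◁ f)⟦m⟧' ≫ ((tensorLeft K).commShiftIso m).inv.app Y := by
  have h := ((tensorLeft K).commShiftIso m).inv.naturality f
  change (K ◁ f)⟦m⟧' ≫ ((tensorLeft K).commShiftIso m).inv.app Y =
    ((tensorLeft K).commShiftIso m).inv.app X ≫ K ◁ (f⟦m⟧') at h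
  rw [Category.assoc, ← h, Functor.map_comp, Category.assoc]

theorem KZero.shift (h : KZero K f) (m : ℤ) : KZero K (f⟦m⟧') := by
  intro j x
  obtain ⟨y, rfl⟩ := exists_of_shift m j x
  rw [Category.assoc, shift_comp_whisker, h, Functor.map_zero, zero_comp, comp_zero]

theorem KInj.shift (h : KInj K f) (m : ℤ) : KInj K (f⟦m⟧') := by
  intro j x hx
  obtain ⟨y, rfl⟩ := exists_of_shift m j x
  rw [Category.assoc, shift_comp_whisker, Preadditive.IsIso.comp_left_eq_zero,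
    Preadditive.IsIso.comp_right_eq_zero] at hx
  have h1 : y ≫ K ◁ f = 0 := (shiftFunctor T m).map_injective (by rw [hx, Functor.map_zero])
  rw [h _ y h1, Functor.map_zero, zero_comp, comp_zero]

theorem KZero.neg (h : KZero K f) : KZero K (-f) := by
  intro j x
  have h1 : K ◁ (-f) = -(K ◁ f) := (tensorLeft K).map_neg
  rw [h1, Preadditive.comp_neg, h, neg_zero]

theorem KInj.neg (h : KInj K f) : KInj K (-f) := by
  intro j x hx
  have h1 : K ◁ (-f) = -(K ◁ f) := (tensorLeft K).map_neg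
  rw [h1, Preadditive.comp_neg, neg_eq_zero] at hx
  exact h j x hx

theorem KInj.frM (h : KInj K f) (j : ℤ) (x : Sf K j ⟶ FM.of X) (hx : x ≫ frM K f = 0) : x = 0 :=
  FM.hom_ext (h j _ ((comp_frM_eq_zero x f).1 hx))

/-- the two outer maps of a triangle with `K_* f` injective: `K_* g` is surjective -/
theorem KInj.surj (hf : KInj K f) (hT : Triangle.mk f g δ ∈ distTriang T) (j : ℤ)
    (z : Sf K j ⟶ FM.of Z) : ∃ y : Sf K j ⟶ FM.of Y, y ≫ KR.frM K g = z := by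
  rw [← ex_of_dist₂ hT j z]
  have h1 : (z ≫ KR.frM K δ) ≫ KR.frM K (-(f⟦(1 : ℤ)⟧')) = 0 :=
    (ex_of_dist₃ hT j _).2 ⟨z, rfl⟩
  exact ((hf.shift 1).neg).frM j _ h1

/-- `K_* f` zero: `K_* g` is injective -/
theorem KZero.inj (hf : KZero K f) (hT : Triangle.mk f g δ ∈ distTriang T) : KInj K g := by
  intro j y hy
  obtain ⟨x, hx⟩ := (ex_of_dist hT j (mkS y)).1 ((comp_frM_eq_zero _ _).2 hy)
  have h1 : x ≫ KR.frM K f = 0 := (comp_frM_eq_zero _ _).2 (hf j _)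
  rw [h1] at hx
  exact (congrArg FM.Hom.hom hx).symm

/-- short exact sequences -/
theorem KBasis.short (h : GField K q) (hT : Triangle.mk f g δ ∈ distTriang T)
    (hf : KInj K f) (bX : KBasis K X ι) (bY : KBasis K Y κ) (bZ : KBasis K Z ζ) :
    ∃ σ : κ ≃ ι ⊕ ζ, ∀ k, (q : ℤ) ∣ bY.e k - Sum.elim bX.e bZ.e (σ k) := by
  apply exists_equiv_of_card
  intro j
  rw [card_sum_dvd, ← bX.rk_eq h, ← bY.rk_eq h, ← bZ.rk_eq h]
  exact h.gf.rk_of_short (ex_of_dist hT) (bY.ft h) j (hf.frM j) (hf.surj hT j)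

theorem KBasis.inj (h : GField K q) (hT : Triangle.mk f g δ ∈ distTriang T)
    (hf : KInj K f) (bX : KBasis K X ι) (bY : KBasis K Y κ) (bZ : KBasis K Z ζ) :
    bY.ev = bX.ev + bZ.ev ∧ bY.od = bX.od + bZ.od := by
  obtain ⟨σ, hσ⟩ := KBasis.short h hT hf bX bY bZ
  have h1 := evc_eq_of_equiv h.even σ hσ
  rw [evc_sum, odc_sum] at h1
  exact h1

theorem KBasis.zeroMap (h : GField K q) (hT : Triangle.mk f g δ ∈ distTriang T)
    (hf : KZero K f) (bX : KBasis K X ι) (bY : KBasis K Y κ) (bZ : KBasis K Z ζ) :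
    bZ.ev = bY.ev + bX.od ∧ bZ.od = bY.od + bX.ev := by
  have h1 := KBasis.inj h (rot_of_distTriang _ hT) (hf.inj hT) bY bZ (bX.shift 1)
  have h2 : (bX.shift 1).ev = bX.od := evc_succ bX.e
  have h3 : (bX.shift 1).od = bX.ev := odc_succ bX.e
  exact ⟨h1.1.trans (congrArg (bY.ev + ·) h2), h1.2.trans (congrArg (bY.od + ·) h3)⟩

/-- the general inequalities -/
theorem KBasis.mid_le (h : GField K q) (hT : Triangle.mk f g δ ∈ distTriang T)
    (bX : KBasis K X ι) (bY : KBasis K Y κ) (bZ : KBasis K Z ζ) :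
    bY.ev ≤ bX.ev + bZ.ev ∧ bY.od ≤ bX.od + bZ.od := by
  obtain ⟨σ, hσ⟩ := exists_emb_of_card (q := q) bY.e (Sum.elim bX.e bZ.e) fun j => by
    rw [card_sum_dvd, ← bX.rk_eq h, ← bY.rk_eq h, ← bZ.rk_eq h]
    exact h.gf.rk_le (ex_of_dist hT) (bX.ft h) (bZ.ft h) j
  have h1 := evc_le_of_emb h.even σ hσ
  rw [evc_sum, odc_sum] at h1
  exact h1

theorem KBasis.cone_le (h : GField K q) (hT : Triangle.mk f g δ ∈ distTriang T)
    (bX : KBasis K X ι) (bY : KBasis K Y κ) (bZ : KBasis K Z ζ) :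
    bZ.ev ≤ bY.ev + bX.od ∧ bZ.od ≤ bY.od + bX.ev := by
  have h1 := KBasis.mid_le h (rot_of_distTriang _ hT) bY bZ (bX.shift 1)
  have h2 : (bX.shift 1).ev = bX.od := evc_succ bX.e
  have h3 : (bX.shift 1).od = bX.ev := odc_succ bX.e
  exact ⟨h1.1.trans_eq (congrArg (bY.ev + ·) h2), h1.2.trans_eq (congrArg (bY.od + ·) h3)⟩

theorem KBasis.le_of_inj (h : GField K q) {f : X ⟶ Y} (hf : KInj K f) (bX : KBasis K X ι)
    (bY : KBasis K Y κ) : bX.ev ≤ bY.ev ∧ bX.od ≤ bY.od := by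
  obtain ⟨σ, hσ⟩ := exists_emb_of_card (q := q) bX.e bY.e fun j => by
    rw [← bX.rk_eq h, ← bY.rk_eq h]
    exact h.gf.rk_le_of_inj (bY.ft h) j (hf.frM j)
  exact evc_le_of_emb h.even σ hσ

end dist

end Vale.Agent.P241.KR
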