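import Mathlib.CategoryTheory.Preadditive.Opposite
import Mathlib.LinearAlgebra.FiniteDimensional.Basic
import Mathlib.LinearAlgebra.Dimension.Constructions
import Mathlib.Data.ZMod.Basic
import Mathlib.Data.Int.Interval
import Mathlib.Algebra.Group.Units.Opposite
import Mathlib.Data.Fintype.EquivFin

/-!
# P241, block KR: linear algebra over a graded field, in a preadditive category

`S : ℤ → C` is a family of objects of a preadditive category `C` (the spheres of the category
of free `K`-modules) such that every non-zero map `S i ⟶ S j` is an isomorphism, and `S i ≅ S j`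
if and only if `q ∣ i - j` (`GF S q`).

* `IsBas S e x` : the family `x i : S (e i) ⟶ X` is a basis of `⨁_j Hom(S j, X)`;
* `GF.card_eq` : the number of basis elements of degree `≡ j` is the dimension of `Hom(S j, X)`;
* `GF.exists_equiv` : the invariance of the degrees modulo `q`;
* `GF.exists_bas` : the existence of bases.
-/

open CategoryTheory

universe v u

namespace Vale.Agent.P241.KR

variable {C : Type u} [Category.{v} C] [Preadditive C]

/-- Every non-zero map `S i ⟶ S j` is an isomorphism, and `S i ≅ S j` iff `q ∣ i - j`. -/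
structure GF (S : ℤ → C) (q : ℕ) : Prop where
  ne (j : ℤ) : 𝟙 (S j) ≠ 0
  van (i j : ℤ) (h : ¬ (q : ℤ) ∣ i - j) (f : S i ⟶ S j) : f = 0
  iso (i j : ℤ) (f : S i ⟶ S j) (hf : f ≠ 0) : IsIso f
  per (i j : ℤ) (h : (q : ℤ) ∣ i - j) : Nonempty (S i ≅ S j)

/-- The family `x i : S (e i) ⟶ X` is a basis. -/
def IsBas (S : ℤ → C) {X : C} {ι : Type} [Fintype ι] (e : ι → ℤ) (x : ∀ i, S (e i) ⟶ X) : Prop :=
  ∀ j : ℤ, Function.Bijective fun c : (∀ i, S j ⟶ S (e i)) => ∑ i, c i ≫ x i

/-- the scalars: endomorphisms of `S j`, acting by precomposition -/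
abbrev Dj (S : ℤ → C) (j : ℤ) : Type v := (End (S j))ᵐᵒᵖ

/-- the dimension of `Hom(S j, X)` -/
noncomputable def rk (S : ℤ → C) (X : C) (j : ℤ) : ℕ := Module.finrank (Dj S j) (S j ⟶ X)

variable {S : ℤ → C} {q : ℕ}

theorem smul_def {j : ℤ} {X : C} (a : Dj S j) (f : S j ⟶ X) : a • f = a.unop ≫ f := rfl

namespace GF

variable (h : GF S q)

include h in
theorem isUnit_or (j : ℤ) (a : Dj S j) : IsUnit a ∨ a = 0 := by
  by_cases ha : a = 0
  · exact Or.inr ha
  · left
    have h1 : a.unop ≠ 0 := fun h0 => ha (MulOpposite.unop_injective h0)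
    have h2 := h.iso j j a.unop h1
    have h3 : IsUnit a.unop := (isUnit_iff_isIso a.unop).2 h2
    exact isUnit_unop.1 h3

include h in
theorem nontriv (j : ℤ) : Nontrivial (Dj S j) :=
  ⟨⟨1, 0, fun h0 => h.ne j (congrArg MulOpposite.unop h0)⟩⟩

/-- the division ring of scalars -/
noncomputable abbrev dring (j : ℤ) : DivisionRing (Dj S j) :=
  haveI := h.nontriv j
  DivisionRing.ofIsUnitOrEqZero (h.isUnit_or j)

include h in
theorem rk_sphere (i j : ℤ) : rk S (S i) j = if (q : ℤ) ∣ j - i then 1 else 0 := by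
  let := h.dring j
  split_ifs with hd
  · obtain ⟨g⟩ := h.per j i hd
    have hg : g.hom ≠ 0 := by
      intro h0
      apply h.ne j
      rw [← g.hom_inv_id, h0, Limits.zero_comp]
    exact (finrank_eq_one_iff_of_nonzero' (K := Dj S j) (V := (S j ⟶ S i)) g.hom hg).2
      fun w => ⟨MulOpposite.op (w ≫ g.inv), by rw [smul_def]; simp⟩
  · have : Subsingleton (S j ⟶ S i) := ⟨fun a b => by rw [h.van j i hd a, h.van j i hd b]⟩
    exact Module.finrank_zero_of_subsingleton

include h in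
theorem finite_sphere (i j : ℤ) : Module.Finite (Dj S j) (S j ⟶ S i) := by
  let := h.dring j
  by_cases hd : (q : ℤ) ∣ j - i
  · exact Module.finite_of_finrank_pos (by
      have := h.rk_sphere i j
      rw [if_pos hd] at this
      unfold rk at this
      omega)
  · have : Subsingleton (S j ⟶ S i) := ⟨fun a b => by rw [h.van j i hd a, h.van j i hd b]⟩
    infer_instance

end GF

section bas

variable {X : C} {ι : Type} [Fintype ι] {e : ι → ℤ} {x : ∀ i, S (e i) ⟶ X}

/-- the linear isomorphism defined by a basis -/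
noncomputable def IsBas.equiv (hb : IsBas S e x) (j : ℤ) :
    (∀ i, (S j ⟶ S (e i))) ≃ₗ[Dj S j] (S j ⟶ X) :=
  LinearEquiv.ofBijective
    { toFun := fun c => ∑ i, c i ≫ x i
      map_add' := fun c d => by
        simp only [Pi.add_apply, Preadditive.add_comp, Finset.sum_add_distrib]
      map_smul' := fun a c => by
        simp only [Pi.smul_apply, smul_def, RingHom.id_apply, Category.assoc,
          Preadditive.comp_sum] } (hb j)

theorem GF.card_eq (h : GF S q) (hb : IsBas S e x) (j : ℤ) :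
    rk S X j = Nat.card {i // (q : ℤ) ∣ j - e i} := by
  classical
  let := h.dring j
  have := fun i => h.finite_sphere (e i) j
  have h1 : Module.finrank (Dj S j) (S j ⟶ X) =
      Module.finrank (Dj S j) (∀ i, (S j ⟶ S (e i))) := (hb.equiv j).finrank_eq.symm
  have h2 : Module.finrank (Dj S j) (∀ i, (S j ⟶ S (e i))) =
      ∑ i, Module.finrank (Dj S j) (S j ⟶ S (e i)) := Module.finrank_pi_fintype _
  rw [rk, h1, h2, Nat.card_eq_fintype_card, Fintype.card_subtype, Finset.card_filter]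
  exact Finset.sum_congr rfl fun i _ => h.rk_sphere (e i) j

theorem GF.finite_of_bas (h : GF S q) (hb : IsBas S e x) (j : ℤ) :
    Module.Finite (Dj S j) (S j ⟶ X) := by
  let := h.dring j
  have := fun i => h.finite_sphere (e i) j
  exact Module.Finite.equiv (hb.equiv j)

end bas

/-! ### Families over `ZMod q` -/

theorem exists_equiv_of_card {ι κ : Type} [Finite ι] [Finite κ] (e : ι → ℤ) (f : κ → ℤ)
    (h : ∀ j : ℤ, Nat.card {i // (q : ℤ) ∣ j - e i} = Nat.card {k // (q : ℤ) ∣ j - f k}) :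
    ∃ σ : ι ≃ κ, ∀ i, (q : ℤ) ∣ e i - f (σ i) := by
  classical
  have h1 : ∀ z : ZMod q, Nonempty ({i // ((e i : ℤ) : ZMod q) = z} ≃
      {k // ((f k : ℤ) : ZMod q) = z}) := by
    intro z
    obtain ⟨j, rfl⟩ := ZMod.intCast_surjective z
    have e1 : {i // ((e i : ℤ) : ZMod q) = j} ≃ {i // (q : ℤ) ∣ j - e i} :=
      Equiv.subtypeEquivRight fun i => ZMod.intCast_eq_intCast_iff_dvd_sub _ _ _
    have e2 : {k // ((f k : ℤ) : ZMod q) = j} ≃ {k // (q : ℤ) ∣ j - f k} :=
      Equiv.subtypeEquivRight fun i => ZMod.intCast_eq_intCast_iff_dvd_sub _ _ _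
    have := Fintype.ofFinite ι
    have := Fintype.ofFinite κ
    exact ⟨e1.trans ((Fintype.equivOfCardEq (by
      rw [← Nat.card_eq_fintype_card, ← Nat.card_eq_fintype_card]
      exact h j)).trans e2.symm)⟩
  refine ⟨Equiv.ofFiberEquiv (f := fun i => ((e i : ℤ) : ZMod q))
    (g := fun k => ((f k : ℤ) : ZMod q)) fun z => (h1 z).some, fun i => ?_⟩
  have h2 := Equiv.ofFiberEquiv_map (f := fun i => ((e i : ℤ) : ZMod q))
    (g := fun k => ((f k : ℤ) : ZMod q)) (fun z => (h1 z).some) i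
  exact (ZMod.intCast_eq_intCast_iff_dvd_sub _ _ _).1 h2

theorem GF.exists_equiv (h : GF S q) {X : C} {ι κ : Type} [Fintype ι] [Fintype κ] {e : ι → ℤ}
    {x : ∀ i, S (e i) ⟶ X} {f : κ → ℤ} {y : ∀ k, S (f k) ⟶ X} (hx : IsBas S e x)
    (hy : IsBas S f y) : ∃ σ : ι ≃ κ, ∀ i, (q : ℤ) ∣ e i - f (σ i) :=
  exists_equiv_of_card e f fun j => by rw [← h.card_eq hx, ← h.card_eq hy]

/-! ### Existence of bases -/

/-- `X` is of finite type. -/
structure FT (S : ℤ → C) (q : ℕ) (X : C) : Prop where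
  fin (j : ℤ) : Module.Finite (Dj S j) (S j ⟶ X)
  supp : q = 0 → ∃ N : ℕ, ∀ j : ℤ, (N : ℤ) < |j| → ∀ f : S j ⟶ X, f = 0

theorem FT.finite_supp {X : C} (hX : FT S q X) :
    {z : ZMod q | ∃ j : ℤ, ((j : ℤ) : ZMod q) = z ∧ ∃ f : S j ⟶ X, f ≠ 0}.Finite := by
  rcases Nat.eq_zero_or_pos q with rfl | hq
  · obtain ⟨N, hN⟩ := hX.supp rfl
    refine (Set.finite_Icc (-(N : ℤ)) (N : ℤ)).subset ?_
    rintro z ⟨j, hj, f, hf⟩
    have hj' : j = z := by
      rw [← hj]
      exact (Int.cast_id (n := j)).symm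
    subst hj'
    by_contra hc
    apply hf
    apply hN j _ f
    by_contra h1
    apply hc
    rw [not_lt, abs_le] at h1
    exact ⟨h1.1, h1.2⟩
  · have : NeZero q := ⟨by omega⟩
    exact Set.toFinite _

theorem GF.exists_bas (h : GF S q) {X : C} (hX : FT S q X) :
    ∃ (ι : Type) (_ : Fintype ι) (e : ι → ℤ) (x : ∀ i, S (e i) ⟶ X), IsBas S e x := by
  classical
  set Z := {z : ZMod q | ∃ j : ℤ, ((j : ℤ) : ZMod q) = z ∧ ∃ f : S j ⟶ X, f ≠ 0} with hZ
  have hfin : Z.Finite := hX.finite_supp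
  let : Fintype Z := hfin.fintype
  choose r hr using fun z : ZMod q => ZMod.intCast_surjective z
  have hb : ∀ z : Z, ∃ (n : ℕ), Nonempty (Module.Basis (Fin n) (Dj S (r z)) (S (r z) ⟶ X)) := by
    intro z
    let := h.dring (r z)
    have := hX.fin (r z)
    exact ⟨_, ⟨Module.finBasis (Dj S (r z)) (S (r z) ⟶ X)⟩⟩
  choose n b using hb
  refine ⟨Σ z : Z, Fin (n z), inferInstance, fun i => r i.1, fun i => (b i.1).some i.2, ?_⟩
  intro j
  -- classes
  have hcl : ∀ z : Z, (q : ℤ) ∣ j - r z ↔ ((j : ℤ) : ZMod q) = z := by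
    intro z
    rw [← ZMod.intCast_eq_intCast_iff_dvd_sub, hr]
    exact eq_comm
  have hsum : ∀ c : (∀ i : (Σ z : Z, Fin (n z)), S j ⟶ S (r i.1)),
      ∑ i, c i ≫ (b i.1).some i.2 = ∑ z, ∑ k, c ⟨z, k⟩ ≫ (b z).some k := fun c =>
    Fintype.sum_sigma _
  by_cases hj : ((j : ℤ) : ZMod q) ∈ Z
  · set z₀ : Z := ⟨_, hj⟩ with hz₀
    obtain ⟨g⟩ := h.per j (r z₀) ((hcl z₀).2 rfl)
    have hsum' : ∀ c : (∀ i : (Σ z : Z, Fin (n z)), S j ⟶ S (r i.1)),
        ∑ i, c i ≫ (b i.1).some i.2 =
          g.hom ≫ ∑ k, (MulOpposite.op (g.inv ≫ c ⟨z₀, k⟩) : Dj S (r z₀)) • (b z₀).some k := by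
      intro c
      rw [hsum, Finset.sum_eq_single z₀]
      · rw [Preadditive.comp_sum]
        refine Finset.sum_congr rfl fun k _ => ?_
        rw [smul_def]
        simp
      · intro z _ hz
        refine Finset.sum_eq_zero fun k _ => ?_
        rw [h.van j (r z) (fun hd => hz (Subtype.ext ((hcl z).1 hd).symm)) (c ⟨z, k⟩),
          Limits.zero_comp]
      · intro h0
        exact absurd (Finset.mem_univ _) h0
    constructor
    · intro c c' hcc
      change ∑ i, c i ≫ (b i.1).some i.2 = ∑ i, c' i ≫ (b i.1).some i.2 at hcc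
      rw [hsum', hsum', cancel_epi] at hcc
      have h1 := (b z₀).some.equivFun.symm.injective (a₁ := fun k =>
        (MulOpposite.op (g.inv ≫ c ⟨z₀, k⟩) : Dj S (r z₀))) (a₂ := fun k =>
        (MulOpposite.op (g.inv ≫ c' ⟨z₀, k⟩) : Dj S (r z₀))) (by
          rw [Module.Basis.equivFun_symm_apply, Module.Basis.equivFun_symm_apply]
          exact hcc)
      funext i
      obtain ⟨z, k⟩ := i
      by_cases hz : z = z₀
      · subst hz
        have h2 := MulOpposite.op_injective (congrFun h1 k)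
        exact (cancel_epi g.inv).1 h2
      · rw [h.van j (r z) (fun hd => hz (Subtype.ext ((hcl z).1 hd).symm)) (c ⟨z, k⟩),
          h.van j (r z) (fun hd => hz (Subtype.ext ((hcl z).1 hd).symm)) (c' ⟨z, k⟩)]
    · intro y
      obtain ⟨a, ha⟩ := (b z₀).some.equivFun.symm.surjective (g.inv ≫ y)
      rw [Module.Basis.equivFun_symm_apply] at ha
      let G : ∀ z : Z, Fin (n z) → (S (r z₀) ⟶ S (r z)) :=
        Function.update (fun _ _ => 0) z₀ fun k => (a k).unop
      refine ⟨fun i => g.hom ≫ G i.1 i.2, ?_⟩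
      change ∑ i : (Σ z : Z, Fin (n z)), (g.hom ≫ G i.1 i.2) ≫ (b i.1).some i.2 = y
      rw [hsum' fun i => g.hom ≫ G i.1 i.2]
      have h3 : ∀ k : Fin (n z₀), (MulOpposite.op (g.inv ≫ g.hom ≫ G z₀ k) : Dj S (r z₀)) =
          a k := by
        intro k
        rw [Iso.inv_hom_id_assoc]
        change MulOpposite.op (Function.update (fun _ _ => 0) z₀ (fun k => (a k).unop) z₀ k) = a k
        rw [Function.update_self]
        rfl
      rw [Finset.sum_congr rfl fun k _ => congrArg (· • (b z₀).some k) (h3 k), ha,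
        Iso.hom_inv_id_assoc]
  · have h0 : ∀ f : S j ⟶ X, f = 0 := by
      intro f
      by_contra hf
      exact hj ⟨j, rfl, f, hf⟩
    constructor
    · intro c c' _
      funext i
      have hv : ¬ (q : ℤ) ∣ j - r i.1 := fun hd => hj (by
        rw [(hcl i.1).1 hd]
        exact i.1.2)
      rw [h.van j _ hv (c i), h.van j _ hv (c' i)]
    · intro y
      refine ⟨fun _ => 0, ?_⟩
      rw [h0 y]
      simp

end Vale.Agent.P241.KR
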