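import Vale.Agent.P241.KR.Defs
import Vale.Agent.P241.KR.Lin
import Vale.Agent.P251.S.TensorShift
import Vale.Agent.P251.M.EvenPer

/-!
# P241, block KR: the category of free `K`-modules and its spheres

`Sf K j = FM.of (𝟙⟦j⟧)` is the free left `K`-module on the sphere of dimension `j`.

* `isIso_of_bind` : a morphism of free modules is an isomorphism if its linear extension is;
* `GField.gf` : if `K` is a graded field then the spheres `Sf K j` satisfy `GF (Sf K) q`;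
* `isBas_iff`, `KBasis.isBas`, `KBasis.ofIsBas` : comparison of `KBasis` and `IsBas`.
-/

open CategoryTheory MonoidalCategory Limits Pretriangulated MonObj
open Vale.Agent.P251.T Vale.Agent.P251.M

universe v u

set_option linter.unusedSectionVars false

namespace Vale.Agent.P241.KR

variable {T : Type u} [Category.{v} T] [Preadditive T] [HasZeroObject T]
    [HasShift T ℤ] [∀ n : ℤ, (shiftFunctor T n).Additive] [Pretriangulated T]
    [MonoidalCategory T] [SymmetricCategory T] [TensorTriangulated T]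

/-- `𝟙⟦a⟧ ⊗ 𝟙⟦b⟧ ≅ 𝟙⟦c⟧` -/
noncomputable def sh2 (a b c : ℤ) (h : a + b = c) :
    (𝟙_ T)⟦a⟧ ⊗ (𝟙_ T)⟦b⟧ ≅ (𝟙_ T)⟦c⟧ :=
  Vale.Agent.P251.S.tensorSph b ((𝟙_ T)⟦a⟧) ≪≫ (shiftFunctorAdd' T a b c h).symm.app (𝟙_ T)

theorem isInv_sph (n : ℤ) : IsInv ((𝟙_ T)⟦n⟧) :=
  IsInv.of_inverse (L' := (𝟙_ T)⟦-n⟧) (sh2 n (-n) 0 (by ring) ≪≫ (shiftFunctorZero T ℤ).app _)

section free

variable {K : T} [MonObj K]

/-- the structure map of a free module as a linear extension -/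
theorem bind_id (X : T) : FM.bind (𝟙 (K ⊗ X)) = (α_ K K X).inv ≫ μ[K] ▷ X := by
  rw [FM.bind, MonoidalCategory.whiskerLeft_id, Category.id_comp]

theorem bind_linear {X Y : T} (f : X ⟶ K ⊗ Y) :
    K ◁ FM.bind f ≫ (α_ K K Y).inv ≫ μ[K] ▷ Y = ((α_ K K X).inv ≫ μ[K] ▷ X) ≫ FM.bind f := by
  have h := FM.bind_bind (𝟙 (K ⊗ X)) f
  rw [Category.id_comp, bind_id] at h
  exact h.symm

/-- the inverse of an invertible linear extension is a linear extension -/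
theorem bind_inv {X Y : T} (f : X ⟶ K ⊗ Y) [IsIso (FM.bind f)] :
    FM.bind (FM.unit K Y ≫ inv (FM.bind f)) = inv (FM.bind f) := by
  have h1 : K ◁ inv (FM.bind f) ≫ (α_ K K X).inv ≫ μ[K] ▷ X =
      ((α_ K K Y).inv ≫ μ[K] ▷ Y) ≫ inv (FM.bind f) := by
    rw [IsIso.eq_comp_inv, Category.assoc, ← bind_linear f, ← MonoidalCategory.whiskerLeft_comp_assoc]
    simp
  have h2 : FM.bind (FM.unit K Y ≫ inv (FM.bind f)) =
      K ◁ FM.unit K Y ≫ K ◁ inv (FM.bind f) ≫ (α_ K K X).inv ≫ μ[K] ▷ X := by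
    rw [FM.bind, MonoidalCategory.whiskerLeft_comp, Category.assoc]
  have h3 := FM.bind_unit (R := K) Y
  rw [FM.bind] at h3
  rw [h2, h1, ← Category.assoc, h3, Category.id_comp]

/-- a morphism of free modules is an isomorphism if its linear extension is one -/
theorem isIso_of_bind {X Y : FM K} (f : X ⟶ Y) (hf : IsIso (FM.bind (FM.Hom.hom f))) :
    IsIso f := by
  refine ⟨⟨FM.unit K Y.obj ≫ inv (FM.bind (FM.Hom.hom f))⟩, ?_, ?_⟩
  · apply FM.hom_ext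
    change FM.Hom.hom f ≫ FM.bind (FM.unit K Y.obj ≫ inv (FM.bind (FM.Hom.hom f))) = FM.unit K _
    rw [bind_inv, IsIso.comp_inv_eq, FM.unit_bind]
  · apply FM.hom_ext
    change (FM.unit K Y.obj ≫ inv (FM.bind (FM.Hom.hom f))) ≫ FM.bind (FM.Hom.hom f) = FM.unit K _
    rw [Category.assoc, IsIso.inv_hom_id, Category.comp_id]

/-- the linear extension of an isomorphism of free modules -/
theorem isIso_bind {X Y : FM K} (f : X ⟶ Y) [IsIso f] : IsIso (FM.bind (FM.Hom.hom f)) := by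
  refine ⟨FM.bind (FM.Hom.hom (inv f)), ?_, ?_⟩
  · rw [FM.bind_bind, ← FM.comp_hom, IsIso.hom_inv_id, FM.id_hom, FM.bind_unit]
  · rw [FM.bind_bind, ← FM.comp_hom, IsIso.inv_hom_id, FM.id_hom, FM.bind_unit]

/-- the linear extension commutes with tensoring on the right -/
theorem bind_whiskerRight {X Y : T} (f : X ⟶ K ⊗ Y) (Z : T) :
    FM.bind (f ▷ Z ≫ (α_ K Y Z).hom) =
      (α_ K X Z).inv ≫ FM.bind f ▷ Z ≫ (α_ K Y Z).hom := by
  simp only [FM.bind]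
  monoidal

end free

/-- the free left `K`-module on the sphere of dimension `j` -/
abbrev Sf (K : T) (j : ℤ) : FM K := FM.of ((𝟙_ T)⟦j⟧)

section spheres

variable {K : T} [MonObj K]

/-- `Hom(𝟙⟦i⟧, K ⊗ 𝟙⟦j⟧)` is `π_{i - j} K` -/
noncomputable def sph_tw (i j m : ℤ) (h : m + j = i) (g : (𝟙_ T)⟦m⟧ ⟶ K) : Sf K i ⟶ Sf K j :=
  ⟨(sh2 m j i h).inv ≫ g ▷ (𝟙_ T)⟦j⟧⟩

theorem tw_zero (i j m : ℤ) (h : m + j = i) : sph_tw (K := K) i j m h 0 = 0 := by
  apply FM.hom_ext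
  change (sh2 m j i h).inv ≫ (0 : (𝟙_ T)⟦m⟧ ⟶ K) ▷ (𝟙_ T)⟦j⟧ = 0
  simp

theorem exists_tw (i j m : ℤ) (h : m + j = i) (f : Sf K i ⟶ Sf K j) :
    ∃ g : (𝟙_ T)⟦m⟧ ⟶ K, f = sph_tw i j m h g := by
  have := isInv_sph (T := T) j
  obtain ⟨g, hg⟩ := whiskerRight_surj ((𝟙_ T)⟦j⟧) ((sh2 m j i h).hom ≫ FM.Hom.hom f)
  refine ⟨g, FM.hom_ext ?_⟩
  change FM.Hom.hom f = (sh2 m j i h).inv ≫ g ▷ (𝟙_ T)⟦j⟧
  rw [hg, Iso.inv_hom_id_assoc]

theorem isIso_tw (i j m : ℤ) (h : m + j = i) (g : (𝟙_ T)⟦m⟧ ⟶ K)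
    (hg : IsIso (K ◁ g ≫ μ[K])) : IsIso (sph_tw i j m h g) := by
  apply isIso_of_bind
  change IsIso (FM.bind ((sh2 m j i h).inv ≫ g ▷ (𝟙_ T)⟦j⟧))
  have e : FM.bind ((sh2 m j i h).inv ≫ g ▷ (𝟙_ T)⟦j⟧) =
      K ◁ (sh2 m j i h).inv ≫ (α_ _ _ _).inv ≫ (K ◁ g ≫ μ[K]) ▷ (𝟙_ T)⟦j⟧ := by
    simp only [FM.bind]
    monoidal
  rw [e]
  infer_instance

variable {q : ℕ}

/-- the spheres over a graded field -/
theorem GField.gf (h : GField K q) : GF (Sf K) q where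
  ne j := by
    intro h0
    have h1 : FM.unit K ((𝟙_ T)⟦j⟧) = 0 := congrArg FM.Hom.hom h0
    have := isInv_sph (T := T) j
    apply h.ne
    apply whiskerRight_inj ((𝟙_ T)⟦j⟧)
    rw [FM.unit, Preadditive.IsIso.comp_left_eq_zero] at h1
    rw [h1]
    simp
  van i j hij f := by
    obtain ⟨g, rfl⟩ := exists_tw i j (i - j) (by ring) f
    rw [h.van _ hij g]
    exact tw_zero _ _ _ _
  iso i j f hf := by
    obtain ⟨g, rfl⟩ := exists_tw i j (i - j) (by ring) f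
    apply isIso_tw
    apply h.inv
    rintro rfl
    exact hf (tw_zero _ _ _ _)
  per i j hij := by
    obtain ⟨g, hg⟩ := h.per
    have h1 : ∀ i : ℤ, Nonempty (Sf K (i + q) ≅ Sf K i) := by
      intro i
      have := isIso_tw (K := K) (i + q) i q (by ring) g (h.inv _ g hg)
      exact ⟨@asIso _ _ _ _ _ this⟩
    have h2 : ∀ (n : ℕ) (i : ℤ), Nonempty (Sf K (i + n * q) ≅ Sf K i) := by
      intro n
      induction n with
      | zero => exact fun i => ⟨eqToIso (by simp)⟩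
      | succ n ih =>
        intro i
        obtain ⟨a⟩ := ih (i + q)
        obtain ⟨b⟩ := h1 i
        have e : i + ((n + 1 : ℕ) : ℤ) * q = i + q + n * q := by push_cast; ring
        exact ⟨eqToIso (by rw [e]) ≪≫ a ≪≫ b⟩
    obtain ⟨c, hc⟩ := hij
    obtain ⟨n, rfl | rfl⟩ := c.eq_nat_or_neg
    · obtain ⟨a⟩ := h2 n j
      have e : i = j + n * q := by linarith
      exact ⟨eqToIso (by rw [e]) ≪≫ a⟩
    · obtain ⟨a⟩ := h2 n i
      have e : i + n * q = j := by linarith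
      exact ⟨a.symm ≪≫ eqToIso (by rw [e])⟩

end spheres

/-- the morphism of free modules defined by a class in `π_* (K ⊗ X)` -/
def mkS {K : T} [MonObj K] {X : T} {n : ℤ} (x : (𝟙_ T)⟦n⟧ ⟶ K ⊗ X) : Sf K n ⟶ FM.of X :=
  FM.Hom.mk (X := Sf K n) (Y := FM.of X) x

section bases

variable {K : T} [MonObj K] {X : T} {ι : Type} [Fintype ι]

theorem sum_hom {A B : FM K} {κ : Type} (s : Finset κ) (f : κ → (A ⟶ B)) :
    FM.Hom.hom (∑ i ∈ s, f i) = ∑ i ∈ s, FM.Hom.hom (f i) := by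
  classical
  induction s using Finset.induction_on with
  | empty => rfl
  | insert a s ha ih =>
    rw [Finset.sum_insert ha, Finset.sum_insert ha, ← ih]
    rfl

theorem isBas_iff (e : ι → ℤ) (x : ∀ i, (𝟙_ T)⟦e i⟧ ⟶ K ⊗ X) :
    IsBas (Sf K) (X := FM.of X) e (fun i => mkS (x i)) ↔
      ∀ j : ℤ, Function.Bijective
        fun c : (∀ i, ((𝟙_ T)⟦j⟧ ⟶ K ⊗ (𝟙_ T)⟦e i⟧)) => ∑ i, c i ≫ lext (x i) := by
  refine forall_congr' fun j => ?_
  let E : (∀ i, Sf K j ⟶ Sf K (e i)) ≃ (∀ i, ((𝟙_ T)⟦j⟧ ⟶ K ⊗ (𝟙_ T)⟦e i⟧)) :=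
    { toFun := fun c i => FM.Hom.hom (c i)
      invFun := fun c i => ⟨c i⟩
      left_inv := fun _ => rfl
      right_inv := fun _ => rfl }
  let E' : (Sf K j ⟶ FM.of X) ≃ ((𝟙_ T)⟦j⟧ ⟶ K ⊗ X) :=
    { toFun := fun c => FM.Hom.hom c
      invFun := fun c => ⟨c⟩
      left_inv := fun _ => rfl
      right_inv := fun _ => rfl }
  have h : (fun c : (∀ i, Sf K j ⟶ Sf K (e i)) => ∑ i, c i ≫ mkS (x i)) =
      E'.symm ∘ (fun c : (∀ i, ((𝟙_ T)⟦j⟧ ⟶ K ⊗ (𝟙_ T)⟦e i⟧)) => ∑ i, c i ≫ lext (x i)) ∘ E := by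
    funext c
    apply FM.hom_ext
    change FM.Hom.hom (∑ i, c i ≫ mkS (x i)) =
      ∑ i, FM.Hom.hom (c i) ≫ lext (x i)
    rw [sum_hom]
    rfl
  rw [h, Equiv.comp_bijective, Equiv.bijective_comp]

theorem KBasis.isBas (b : KBasis K X ι) :
    IsBas (Sf K) (X := FM.of X) b.e (fun i => mkS (b.x i)) := (isBas_iff b.e b.x).2 b.bij

/-- a basis of `π_* (K ⊗ X)` from a basis in `FM K` -/
noncomputable def KBasis.ofIsBas {e : ι → ℤ} {x : ∀ i, Sf K (e i) ⟶ FM.of X}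
    (h : IsBas (Sf K) e x) : KBasis K X ι where
  e := e
  x i := FM.Hom.hom (x i)
  bij := (isBas_iff e fun i => FM.Hom.hom (x i)).1 h

end bases

end Vale.Agent.P241.KR
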