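import Vale.Agent.P241.KR.Basic
import Vale.Agent.P241.BD.Lift

/-!
# P241, block KR: bases of even cell objects (`K` an arbitrary even associative ring)

* `IsBas.ext` : the basis of an extension;
* `exists_kbasis_of_cl` : `Cl T s X`, `π_odd K = 0` ⇒ `K_* X` has a basis of `s.card` elements, all
  in even degrees.
-/

open CategoryTheory MonoidalCategory Limits Pretriangulated MonObj
open Vale.Agent.P251.T Vale.Agent.P251.M

universe v u

set_option linter.unusedSectionVars false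

namespace Vale.Agent.P241.KR

section abs

variable {C : Type u} [Category.{v} C] [Preadditive C] {S : ℤ → C}

/-- the family of two families -/
def sumHom {Y : C} {ι ζ : Type} {e : ι → ℤ} {g : ζ → ℤ} (x : ∀ i, S (e i) ⟶ Y)
    (y : ∀ k, S (g k) ⟶ Y) : ∀ i, S (Sum.elim e g i) ⟶ Y
  | Sum.inl i => x i
  | Sum.inr k => y k

/-- the left components of a family of coefficients -/
def coL {ι ζ : Type} {e : ι → ℤ} {g : ζ → ℤ} {A : C} (c : ∀ i, A ⟶ S (Sum.elim e g i)) :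
    ∀ i, A ⟶ S (e i) := fun i => c (Sum.inl i)

/-- the right components of a family of coefficients -/
def coR {ι ζ : Type} {e : ι → ℤ} {g : ζ → ℤ} {A : C} (c : ∀ i, A ⟶ S (Sum.elim e g i)) :
    ∀ k, A ⟶ S (g k) := fun k => c (Sum.inr k)

theorem sum_sumHom {Y A : C} {ι ζ : Type} [Fintype ι] [Fintype ζ] {e : ι → ℤ} {g : ζ → ℤ}
    (x : ∀ i, S (e i) ⟶ Y) (y : ∀ k, S (g k) ⟶ Y) (c : ∀ i, A ⟶ S (Sum.elim e g i)) :
    ∑ i, c i ≫ sumHom x y i = ∑ i, coL c i ≫ x i + ∑ k, coR c k ≫ y k :=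
  Fintype.sum_sum_type _

/-- the basis of an extension -/
theorem IsBas.ext {X Y Z : C} {u : X ⟶ Y} {v : Y ⟶ Z} (hex : Ex S u v)
    (hu : ∀ (j : ℤ) (x : S j ⟶ X), x ≫ u = 0 → x = 0) {ι ζ : Type} [Fintype ι] [Fintype ζ]
    {e : ι → ℤ} {g : ζ → ℤ} {x : ∀ i, S (e i) ⟶ X} {z : ∀ k, S (g k) ⟶ Z}
    (hx : IsBas S e x) (hz : IsBas S g z) (y : ∀ k, S (g k) ⟶ Y) (hy : ∀ k, y k ≫ v = z k) :
    IsBas S (Sum.elim e g) (sumHom (fun i => x i ≫ u) y) := by
  have hxu : ∀ {j : ℤ} (a : S j ⟶ X), (a ≫ u) ≫ v = 0 := fun a => (hex _ _).2 ⟨a, rfl⟩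
  have hs : ∀ {j : ℤ} (c : ∀ i, S j ⟶ S (Sum.elim e g i)),
      ∑ i, c i ≫ sumHom (fun i => x i ≫ u) y i =
        (∑ i, coL c i ≫ x i) ≫ u + ∑ k, coR c k ≫ y k := by
    intro j c
    rw [sum_sumHom, Preadditive.sum_comp]
    simp only [Category.assoc]
  have hsv : ∀ {j : ℤ} (d : ∀ k, S j ⟶ S (g k)), (∑ k, d k ≫ y k) ≫ v = ∑ k, d k ≫ z k := by
    intro j d
    rw [Preadditive.sum_comp]
    exact Finset.sum_congr rfl fun k _ => by rw [Category.assoc, hy]
  intro j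
  constructor
  · intro c c' hcc
    change ∑ i, c i ≫ sumHom (fun i => x i ≫ u) y i = ∑ i, c' i ≫ sumHom (fun i => x i ≫ u) y i
      at hcc
    rw [hs, hs] at hcc
    have h1 : coR c = coR c' := by
      apply (hz j).1
      change ∑ k, coR c k ≫ z k = ∑ k, coR c' k ≫ z k
      have h2 := congrArg (fun a => a ≫ v) hcc
      simp only [Preadditive.add_comp, hxu, zero_add] at h2
      rw [hsv, hsv] at h2
      exact h2
    have h3 : coL c = coL c' := by
      apply (hx j).1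
      change ∑ k, coL c k ≫ x k = ∑ k, coL c' k ≫ x k
      rw [h1, add_left_inj, ← sub_eq_zero, ← Preadditive.sub_comp] at hcc
      exact sub_eq_zero.1 (hu j _ hcc)
    funext i
    rcases i with i | k
    · exact congrFun h3 i
    · exact congrFun h1 k
  · intro w
    obtain ⟨d, hd⟩ := (hz j).2 (w ≫ v)
    change ∑ k, d k ≫ z k = w ≫ v at hd
    obtain ⟨a, ha⟩ := (hex j (w - ∑ k, d k ≫ y k)).1 (by
      rw [Preadditive.sub_comp, hsv, hd, sub_self])
    obtain ⟨c, hc⟩ := (hx j).2 a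
    change ∑ i, c i ≫ x i = a at hc
    let b : ∀ i, S j ⟶ S (Sum.elim e g i) := fun i =>
      match i with
      | Sum.inl i => c i
      | Sum.inr k => d k
    refine ⟨b, ?_⟩
    change ∑ i, b i ≫ sumHom (fun i => x i ≫ u) y i = w
    rw [hs]
    change (∑ i, c i ≫ x i) ≫ u + ∑ k, d k ≫ y k = w
    rw [hc, ha]
    abel

end abs

variable {T : Type u} [Category.{v} T] [Preadditive T] [HasZeroObject T]
    [HasShift T ℤ] [∀ n : ℤ, (shiftFunctor T n).Additive] [Pretriangulated T]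
    [MonoidalCategory T] [SymmetricCategory T] [TensorTriangulated T]

variable {K : T} [MonObj K]

/-- the basis of an extension, if the outer objects have even homology -/
theorem exists_ext_basis {X Y Z : T} {f : X ⟶ Y} {g : Y ⟶ Z} {δ : Z ⟶ X⟦(1 : ℤ)⟧}
    (hT : Triangle.mk f g δ ∈ distTriang T) {ι ζ : Type} [Fintype ι] [Fintype ζ]
    (bX : KBasis K X ι) (bZ : KBasis K Z ζ) (hf : KInj K f)
    (hδ : ∀ k, bZ.x k ≫ K ◁ δ = 0) :
    ∃ b : KBasis K Y (ι ⊕ ζ), b.e = Sum.elim bX.e bZ.e := by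
  have h1 : ∀ k, ∃ y : Sf K (bZ.e k) ⟶ FM.of Y, y ≫ frM K g = mkS (bZ.x k) := fun k =>
    (ex_of_dist₂ hT _ _).1 ((comp_frM_eq_zero _ _).2 (hδ k))
  choose y hy using h1
  exact ⟨KBasis.ofIsBas (IsBas.ext (ex_of_dist hT) hf.frM bX.isBas bZ.isBas y hy), rfl⟩

end Vale.Agent.P241.KR

namespace Vale.Agent.P241.BD

open KR

variable {T : Type u} [Category.{v} T] [Preadditive T] [HasZeroObject T]
    [HasShift T ℤ] [∀ n : ℤ, (shiftFunctor T n).Additive] [Pretriangulated T] [IsTriangulated T]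
    [MonoidalCategory T] [SymmetricCategory T] [TensorTriangulated T] [MonoidalClosed T]
    [HasCoproducts.{0} T] [HasProducts.{0} T] [StableCat T]

variable {K : T} [MonObj K]

/-- the composites of `K`-classes with the boundary map vanish by parity -/
theorem comp_whiskerLeft_delta_eq_zero {s : Multiset ℤ} {X Z : T} (hK : OddZero K)
    (hX : Cl T s X) (δ : Z ⟶ X⟦(1 : ℤ)⟧) {n : ℤ} (hn : Even n) (z : (𝟙_ T)⟦n⟧ ⟶ K ⊗ Z) :
    z ≫ K ◁ δ = 0 := by
  obtain ⟨k, rfl⟩ := hn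
  have h1 : OddZero (K ⊗ X) := hK.tensor_cl hX
  obtain ⟨y, hy⟩ := exists_of_shift (K := K) (X := X) 1 (k + k) (z ≫ K ◁ δ)
  have h2 : y = 0 := by
    have h3 : k + k - 1 = 2 * (k - 1) + 1 := by ring
    have h4 : ∀ (m : ℤ) (_ : m = 2 * (k - 1) + 1) (f : (𝟙_ T)⟦m⟧ ⟶ K ⊗ X), f = 0 := by
      rintro m rfl f
      exact h1 _ f
    exact h4 _ h3 y
  rw [hy, h2]
  simp

/-- **The homology of even cell objects.** -/
theorem exists_kbasis_of_cl {s : Multiset ℤ} {X : T} (hK : OddZero K) (hX : Cl T s X) :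
    ∃ (ι : Type) (_ : Fintype ι) (b : KBasis K X ι), Fintype.card ι = s.card ∧
      ∀ i, Even (b.e i) := by
  induction hX with
  | zero X hX =>
    refine ⟨Empty, inferInstance, KBasis.empty fun _ f =>
      ((tensorLeft K).map_isZero hX).eq_of_tgt f 0, rfl, fun i => i.elim⟩
  | sphere k => exact ⟨Unit, inferInstance, KBasis.sphere K (2 * k), rfl, fun _ => by simp⟩
  | ext Δ hΔ h₁ h₃ ih₁ ih₃ =>
    obtain ⟨ι, hι, b₁, hc₁, he₁⟩ := ih₁
    obtain ⟨ζ, hζ, b₃, hc₃, he₃⟩ := ih₃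
    have hf : KInj K Δ.mor₁ := by
      -- `K_*` of the fibre map is zero, by parity
      intro j x hx
      rcases Int.even_or_odd' j with ⟨k, rfl | rfl⟩
      · -- `x` comes from `K ⊗ Z⟦-1⟧`
        have h1 := inv_rot_of_distTriang _ hΔ
        obtain ⟨w, hw⟩ := (ex_of_dist (K := K) (f := Δ.invRotate.mor₁) (g := Δ.mor₁)
          (δ := Δ.invRotate.mor₃) h1 (2 * k) (mkS x)).1 ((comp_frM_eq_zero _ _).2 hx)
        have h2 : OddZero (K ⊗ Δ.obj₃) := hK.tensor_cl h₃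
        obtain ⟨y, hy⟩ := exists_of_shift (K := K) (X := Δ.obj₃) (-1) (2 * k) (FM.Hom.hom w)
        have h4 : ∀ (m : ℤ) (_ : m = 2 * k + 1) (f : (𝟙_ T)⟦m⟧ ⟶ K ⊗ Δ.obj₃), f = 0 := by
          rintro m rfl f
          exact h2 _ f
        have h5 : w = 0 := by
          apply FM.hom_ext
          change FM.Hom.hom w = 0
          rw [hy, h4 _ (by ring) y]
          simp only [Functor.map_zero, zero_comp, comp_zero]
          rfl
        rw [h5, zero_comp] at hw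
        exact (congrArg FM.Hom.hom hw).symm
      · exact (hK.tensor_cl h₁) _ x
    obtain ⟨b, hb⟩ := exists_ext_basis (f := Δ.mor₁) (g := Δ.mor₂) (δ := Δ.mor₃) hΔ b₁ b₃ hf
      fun k => comp_whiskerLeft_delta_eq_zero hK h₁ Δ.mor₃ (he₃ k) (b₃.x k)
    refine ⟨ι ⊕ ζ, inferInstance, b, ?_, fun i => ?_⟩
    · rw [Fintype.card_sum, hc₁, hc₃, Multiset.card_add]
    · rw [hb]
      rcases i with i | i
      · exact he₁ i
      · exact he₃ i

theorem exists_kbasis_fin_of_cl {s : Multiset ℤ} {X : T} (hK : OddZero K) (hX : Cl T s X) :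
    ∃ b : KBasis K X (Fin s.card), ∀ i, Even (b.e i) := by
  obtain ⟨ι, hι, b, hc, he⟩ := exists_kbasis_of_cl hK hX
  exact ⟨b.reindex (Fintype.equivFinOfCardEq hc).symm, fun i => he _⟩

end Vale.Agent.P241.BD
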