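import Vale.Agent.P241.KR.Lin
import Mathlib.LinearAlgebra.FiniteDimensional.Lemmas

/-!
# P241, block KR: exact sequences over a graded field

* `Ex S u v` : exactness of `Hom(S j, X) ⟶ Hom(S j, Y) ⟶ Hom(S j, Z)` for all `j`;
* `GF.ft_of_ex` : the middle object is of finite type if the outer ones are;
* `GF.rk_of_short`, `GF.rk_le` : the ranks;
* `exists_equiv_sum`, `exists_emb_sum` : consequences for the degrees of bases;
* `IsBas.map` : transport of bases by fully faithful functors.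
-/

open CategoryTheory

set_option linter.unusedSectionVars false

universe v u v' u'

namespace Vale.Agent.P241.KR

variable {C : Type u} [Category.{v} C] [Preadditive C] {S : ℤ → C} {q : ℕ}

/-- postcomposition as a linear map -/
def postL (S : ℤ → C) (j : ℤ) {X Y : C} (u : X ⟶ Y) : (S j ⟶ X) →ₗ[Dj S j] (S j ⟶ Y) where
  toFun f := f ≫ u
  map_add' f g := Preadditive.add_comp _ _ _ _ _ _
  map_smul' a f := by simp only [smul_def, RingHom.id_apply, Category.assoc]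

@[simp] theorem postL_apply (j : ℤ) {X Y : C} (u : X ⟶ Y) (f : S j ⟶ X) :
    postL S j u f = f ≫ u := rfl

/-- exactness in the middle -/
def Ex (S : ℤ → C) {X Y Z : C} (u : X ⟶ Y) (v : Y ⟶ Z) : Prop :=
  ∀ (j : ℤ) (y : S j ⟶ Y), y ≫ v = 0 ↔ ∃ x : S j ⟶ X, x ≫ u = y

theorem Ex.ker_eq {X Y Z : C} {u : X ⟶ Y} {v : Y ⟶ Z} (h : Ex S u v) (j : ℤ) :
    LinearMap.ker (postL S j v) = LinearMap.range (postL S j u) := by
  ext y
  rw [LinearMap.mem_ker, LinearMap.mem_range]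
  exact h j y

namespace GF

variable (h : GF S q)

include h in
theorem finite_of_ex {X Y Z : C} {u : X ⟶ Y} {v : Y ⟶ Z} (hex : Ex S u v) (j : ℤ)
    (hX : Module.Finite (Dj S j) (S j ⟶ X)) (hZ : Module.Finite (Dj S j) (S j ⟶ Z)) :
    Module.Finite (Dj S j) (S j ⟶ Y) := by
  let := h.dring j
  refine ⟨Submodule.fg_of_fg_map_of_fg_inf_ker (postL S j v) ?_ ?_⟩
  · exact (IsNoetherian.noetherian _)
  · rw [top_inf_eq, hex.ker_eq j]
    exact Module.Finite.iff_fg.1 (Module.Finite.range _)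

include h in
theorem ft_of_ex {X Y Z : C} {u : X ⟶ Y} {v : Y ⟶ Z} (hex : Ex S u v)
    (hX : FT S q X) (hZ : FT S q Z) : FT S q Y where
  fin j := h.finite_of_ex hex j (hX.fin j) (hZ.fin j)
  supp hq := by
    obtain ⟨N, hN⟩ := hX.supp hq
    obtain ⟨M, hM⟩ := hZ.supp hq
    refine ⟨max N M, fun j hj f => ?_⟩
    obtain ⟨x, hx⟩ := (hex j f).1 (hM j (by push_cast at hj; omega) _)
    rw [← hx, hN j (by push_cast at hj; omega) x, Limits.zero_comp]

include h in
theorem rk_le {X Y Z : C} {u : X ⟶ Y} {v : Y ⟶ Z} (hex : Ex S u v)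
    (hX : FT S q X) (hZ : FT S q Z) (j : ℤ) : rk S Y j ≤ rk S X j + rk S Z j := by
  let := h.dring j
  have := hX.fin j
  have := hZ.fin j
  have := h.finite_of_ex hex j (hX.fin j) (hZ.fin j)
  have h1 := (postL S j v).finrank_range_add_finrank_ker
  rw [hex.ker_eq j] at h1
  have h2 : Module.finrank (Dj S j) (LinearMap.range (postL S j u)) ≤ rk S X j :=
    LinearMap.finrank_range_le _
  have h3 : Module.finrank (Dj S j) (LinearMap.range (postL S j v)) ≤ rk S Z j :=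
    Submodule.finrank_le _
  unfold rk at *
  omega

include h in
theorem rk_of_short {X Y Z : C} {u : X ⟶ Y} {v : Y ⟶ Z} (hex : Ex S u v)
    (hY : FT S q Y) (j : ℤ) (hu : ∀ x : S j ⟶ X, x ≫ u = 0 → x = 0)
    (hv : ∀ z : S j ⟶ Z, ∃ y : S j ⟶ Y, y ≫ v = z) : rk S Y j = rk S X j + rk S Z j := by
  let := h.dring j
  have := hY.fin j
  have h1 := (postL S j v).finrank_range_add_finrank_ker
  have hr : LinearMap.range (postL S j v) = ⊤ := LinearMap.range_eq_top.2 hv
  rw [hex.ker_eq j, hr, finrank_top] at h1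
  have h2 : Module.finrank (Dj S j) (LinearMap.range (postL S j u)) = rk S X j :=
    LinearMap.finrank_range_of_inj
      ((injective_iff_map_eq_zero (postL S j u)).2 hu)
  unfold rk at *
  omega

include h in
theorem rk_le_of_inj {X Y : C} {u : X ⟶ Y} (hY : FT S q Y) (j : ℤ)
    (hu : ∀ x : S j ⟶ X, x ≫ u = 0 → x = 0) : rk S X j ≤ rk S Y j := by
  let := h.dring j
  have := hY.fin j
  exact LinearMap.finrank_le_finrank_of_injective (f := postL S j u)
    ((injective_iff_map_eq_zero (postL S j u)).2 hu)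

end GF

/-! ### Degrees -/

section degrees

variable {ι κ ζ : Type} [Finite ι] [Finite κ] [Finite ζ]

theorem exists_emb_of_card (e : ι → ℤ) (f : κ → ℤ)
    (h : ∀ j : ℤ, Nat.card {i // (q : ℤ) ∣ j - e i} ≤ Nat.card {k // (q : ℤ) ∣ j - f k}) :
    ∃ σ : ι ↪ κ, ∀ i, (q : ℤ) ∣ e i - f (σ i) := by
  classical
  have := Fintype.ofFinite ι
  have := Fintype.ofFinite κ
  have h1 : ∀ z : ZMod q, Nonempty ({i // ((e i : ℤ) : ZMod q) = z} ↪
      {k // ((f k : ℤ) : ZMod q) = z}) := by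
    intro z
    obtain ⟨j, rfl⟩ := ZMod.intCast_surjective z
    have e1 : {i // ((e i : ℤ) : ZMod q) = j} ≃ {i // (q : ℤ) ∣ j - e i} :=
      Equiv.subtypeEquivRight fun i => ZMod.intCast_eq_intCast_iff_dvd_sub _ _ _
    have e2 : {k // ((f k : ℤ) : ZMod q) = j} ≃ {k // (q : ℤ) ∣ j - f k} :=
      Equiv.subtypeEquivRight fun i => ZMod.intCast_eq_intCast_iff_dvd_sub _ _ _
    have h2 : Nonempty ({i // (q : ℤ) ∣ j - e i} ↪ {k // (q : ℤ) ∣ j - f k}) := by
      apply Function.Embedding.nonempty_of_card_le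
      rw [← Nat.card_eq_fintype_card, ← Nat.card_eq_fintype_card]
      exact h j
    exact ⟨(e1.toEmbedding.trans h2.some).trans e2.symm.toEmbedding⟩
  let g := fun z => (h1 z).some
  let τ : ι → κ := fun i => (g ((e i : ℤ) : ZMod q) ⟨i, rfl⟩).1
  have hτ : ∀ i, ((f (τ i) : ℤ) : ZMod q) = ((e i : ℤ) : ZMod q) := fun i =>
    (g ((e i : ℤ) : ZMod q) ⟨i, rfl⟩).2
  have key : ∀ (z : ZMod q) (i : ι) (hi : ((e i : ℤ) : ZMod q) = z), τ i = (g z ⟨i, hi⟩).1 := by
    rintro z i rfl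
    rfl
  refine ⟨⟨τ, fun i i' hi => ?_⟩, fun i => ?_⟩
  · have h3 : ((e i : ℤ) : ZMod q) = ((e i' : ℤ) : ZMod q) := by
      rw [← hτ i, ← hτ i', hi]
    have h4 := key _ i' h3.symm
    have h5 : (g ((e i : ℤ) : ZMod q) ⟨i, rfl⟩) = (g ((e i : ℤ) : ZMod q) ⟨i', h3.symm⟩) :=
      Subtype.ext (by rw [← h4, ← hi])
    exact congrArg Subtype.val ((g _).injective h5)
  · exact (ZMod.intCast_eq_intCast_iff_dvd_sub _ _ _).1 (hτ i)

theorem card_sum_dvd (e : ι → ℤ) (g : ζ → ℤ) (j : ℤ) :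
    Nat.card {i // (q : ℤ) ∣ j - Sum.elim e g i} =
      Nat.card {i // (q : ℤ) ∣ j - e i} + Nat.card {i // (q : ℤ) ∣ j - g i} := by
  rw [← Nat.card_sum]
  exact Nat.card_congr (Equiv.subtypeSum)

theorem even_of_dvd (hq : Even q) {a b : ℤ} (h : (q : ℤ) ∣ a - b) : Even a ↔ Even b := by
  have h1 : Even (a - b) := ((Int.even_coe_nat q).2 hq).trans_dvd h
  exact Int.even_sub.1 h1

/-- the number of elements of even degree -/
noncomputable def evc (e : ι → ℤ) : ℕ := Nat.card {i // Even (e i)}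

/-- the number of elements of odd degree -/
noncomputable def odc (e : ι → ℤ) : ℕ := Nat.card {i // Odd (e i)}

theorem evc_add_odc (e : ι → ℤ) : evc e + odc e = Nat.card ι := by
  rw [evc, odc, ← Nat.card_sum]
  refine Nat.card_congr ((Equiv.sumCongr (Equiv.refl _) (Equiv.subtypeEquivRight fun i => ?_)).trans
    (Equiv.sumCompl _))
  exact Int.not_even_iff_odd.symm

theorem evc_le_of_emb (hq : Even q) {e : ι → ℤ} {f : κ → ℤ} (σ : ι ↪ κ)
    (h : ∀ i, (q : ℤ) ∣ e i - f (σ i)) : evc e ≤ evc f ∧ odc e ≤ odc f := by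
  constructor
  · exact Nat.card_le_card_of_injective
      (fun i : {i // Even (e i)} => (⟨σ i.1, (even_of_dvd hq (h i.1)).1 i.2⟩ : {k // Even (f k)}))
      fun i i' hi => Subtype.ext (σ.injective (congrArg Subtype.val hi))
  · exact Nat.card_le_card_of_injective
      (fun i : {i // Odd (e i)} => (⟨σ i.1, by
        rw [← Int.not_even_iff_odd, ← even_of_dvd hq (h i.1), Int.not_even_iff_odd]
        exact i.2⟩ : {k // Odd (f k)}))
      fun i i' hi => Subtype.ext (σ.injective (congrArg Subtype.val hi))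

theorem evc_eq_of_equiv (hq : Even q) {e : ι → ℤ} {f : κ → ℤ} (σ : ι ≃ κ)
    (h : ∀ i, (q : ℤ) ∣ e i - f (σ i)) : evc e = evc f ∧ odc e = odc f := by
  have h1 := evc_le_of_emb hq σ.toEmbedding h
  have h2 := evc_le_of_emb hq (e := f) (f := e) σ.symm.toEmbedding (fun k => by
    have := h (σ.symm k)
    rw [Equiv.apply_symm_apply] at this
    have h3 := dvd_neg.2 this
    rwa [neg_sub] at h3)
  exact ⟨le_antisymm h1.1 h2.1, le_antisymm h1.2 h2.2⟩

theorem evc_sum (e : ι → ℤ) (g : ζ → ℤ) : evc (Sum.elim e g) = evc e + evc g := by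
  rw [evc, evc, evc, ← Nat.card_sum]
  exact Nat.card_congr Equiv.subtypeSum

theorem odc_sum (e : ι → ℤ) (g : ζ → ℤ) : odc (Sum.elim e g) = odc e + odc g := by
  rw [odc, odc, odc, ← Nat.card_sum]
  exact Nat.card_congr Equiv.subtypeSum

theorem evc_succ (e : ι → ℤ) : evc (fun i => e i + 1) = odc e :=
  Nat.card_congr (Equiv.subtypeEquivRight fun i => by
    rw [Int.even_add_one, Int.not_even_iff_odd])

theorem odc_succ (e : ι → ℤ) : odc (fun i => e i + 1) = evc e :=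
  Nat.card_congr (Equiv.subtypeEquivRight fun i => by
    rw [← Int.not_even_iff_odd, Int.even_add_one, not_not])

end degrees

/-! ### Transport -/

section map

variable {C' : Type u'} [Category.{v'} C'] [Preadditive C'] {S' : ℤ → C'}

/-- bases are transported by fully faithful functors which shift the spheres -/
theorem IsBas.map {X : C} {ι : Type} [Fintype ι] {e : ι → ℤ} {x : ∀ i, S (e i) ⟶ X}
    (hb : IsBas S e x) (Φ : C ⥤ C') [Φ.Additive] [Φ.Full] [Φ.Faithful] (m : ℤ)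
    (σ : ∀ j, S' (j + m) ≅ Φ.obj (S j)) :
    IsBas S' (X := Φ.obj X) (fun i => e i + m) (fun i => (σ (e i)).hom ≫ Φ.map (x i)) := by
  intro j
  obtain ⟨j, rfl⟩ : ∃ j', j = j' + m := ⟨j - m, by ring⟩
  have hs : ∀ c : (∀ i, S j ⟶ S (e i)),
      ∑ i, ((σ j).hom ≫ Φ.map (c i) ≫ (σ (e i)).inv) ≫ (σ (e i)).hom ≫ Φ.map (x i) =
        (σ j).hom ≫ Φ.map (∑ i, c i ≫ x i) := by
    intro c
    rw [Functor.map_sum, Preadditive.comp_sum]
    refine Finset.sum_congr rfl fun i _ => ?_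
    simp
  constructor
  · intro c c' hc
    change ∑ i, c i ≫ (σ (e i)).hom ≫ Φ.map (x i) = ∑ i, c' i ≫ (σ (e i)).hom ≫ Φ.map (x i) at hc
    have h1 : ∀ c : (∀ i, S' (j + m) ⟶ S' (e i + m)), ∃ d : (∀ i, S j ⟶ S (e i)),
        c = fun i => (σ j).hom ≫ Φ.map (d i) ≫ (σ (e i)).inv := fun c =>
      ⟨fun i => Φ.preimage ((σ j).inv ≫ c i ≫ (σ (e i)).hom), by
        funext i
        simp⟩
    obtain ⟨d, rfl⟩ := h1 c
    obtain ⟨d', rfl⟩ := h1 c'
    rw [hs, hs, cancel_epi] at hc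
    have h2 := (hb j).1 (a₁ := d) (a₂ := d') (Φ.map_injective hc)
    rw [h2]
  · intro y
    obtain ⟨c, hc⟩ := (hb j).2 (Φ.preimage ((σ j).inv ≫ y))
    change ∑ i, c i ≫ x i = _ at hc
    refine ⟨fun i => (σ j).hom ≫ Φ.map (c i) ≫ (σ (e i)).inv, ?_⟩
    change ∑ i, ((σ j).hom ≫ Φ.map (c i) ≫ (σ (e i)).inv) ≫ (σ (e i)).hom ≫ Φ.map (x i) = y
    rw [hs, hc, Functor.map_preimage, Iso.hom_inv_id_assoc]

theorem IsBas.of_iso {X Y : C} {ι : Type} [Fintype ι] {e : ι → ℤ} {x : ∀ i, S (e i) ⟶ X}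
    (hb : IsBas S e x) (α : X ≅ Y) : IsBas S e (fun i => x i ≫ α.hom) := by
  intro j
  have h : (fun c : (∀ i, S j ⟶ S (e i)) => ∑ i, c i ≫ x i ≫ α.hom) =
      (α.homToEquiv) ∘ fun c : (∀ i, S j ⟶ S (e i)) => ∑ i, c i ≫ x i := by
    funext c
    change _ = (∑ i, c i ≫ x i) ≫ α.hom
    rw [Preadditive.sum_comp]
    simp
  rw [h, Equiv.comp_bijective]
  exact hb j

end map

end Vale.Agent.P241.KR
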