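import Vale.Agent.P241.KR.Sphere
import Vale.Agent.P241.KR.Exact

/-!
# P241, block KR: exactness and shifts in the category of free `K`-modules

* `ex_of_dist` : `K`-homology is exact on distinguished triangles;
* `rtF K Z : FM K ⥤ FM K`, `X ↦ X ⊗ Z`; it is fully faithful if `Z` is invertible;
* `KBasis.shift`, `KBasis.ofIso`, `KBasis.reindex`.
-/

open CategoryTheory MonoidalCategory Limits Pretriangulated MonObj
open Vale.Agent.P251.T Vale.Agent.P251.M

universe v u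

set_option linter.unusedSectionVars false

namespace Vale.Agent.P241.KR

variable {T : Type u} [Category.{v} T] [Preadditive T] [HasZeroObject T]
    [HasShift T ℤ] [∀ n : ℤ, (shiftFunctor T n).Additive] [Pretriangulated T]
    [MonoidalCategory T] [SymmetricCategory T] [TensorTriangulated T]

variable {K : T} [MonObj K]

variable (K) in
/-- `K ⊗ g` as a morphism of free modules -/
def frM {Y Z : T} (g : Y ⟶ Z) : FM.of (R := K) Y ⟶ FM.of Z := (FM.free K).map g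

theorem comp_frM_hom {A : FM K} {Y Z : T} (y : A ⟶ FM.of Y) (g : Y ⟶ Z) :
    FM.Hom.hom (y ≫ frM K g) = FM.Hom.hom y ≫ K ◁ g := FM.comp_free_map_hom y g

theorem comp_frM_eq_zero {A : FM K} {Y Z : T} (y : A ⟶ FM.of Y) (g : Y ⟶ Z) :
    y ≫ frM K g = 0 ↔ FM.Hom.hom y ≫ K ◁ g = 0 := by
  rw [← comp_frM_hom]
  exact ⟨fun h => congrArg FM.Hom.hom h, fun h => FM.hom_ext h⟩

/-- `K`-homology is exact -/
theorem ex_of_dist {X Y Z : T} {f : X ⟶ Y} {g : Y ⟶ Z} {δ : Z ⟶ X⟦(1 : ℤ)⟧}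
    (h : Triangle.mk f g δ ∈ distTriang T) :
    Ex (Sf K) (frM K f) (frM K g) := by
  intro j y
  have hK := Vale.Agent.P251.S.dist_whiskerLeft K h
  rw [comp_frM_eq_zero]
  constructor
  · intro h1
    obtain ⟨x, hx⟩ := Triangle.coyoneda_exact₂ _ hK (FM.Hom.hom y) h1
    have hx' : FM.Hom.hom y = (show (𝟙_ T)⟦j⟧ ⟶ K ⊗ X from x) ≫ K ◁ f := hx
    refine ⟨mkS (show (𝟙_ T)⟦j⟧ ⟶ K ⊗ X from x), FM.hom_ext ?_⟩
    rw [comp_frM_hom]
    exact hx'.symm
  · rintro ⟨x, rfl⟩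
    have h2 : f ≫ g = 0 := comp_distTriang_mor_zero₁₂ _ h
    rw [comp_frM_hom, Category.assoc, ← MonoidalCategory.whiskerLeft_comp, h2,
      MonoidalPreadditive.whiskerLeft_zero, comp_zero]

theorem ex_of_dist₂ {X Y Z : T} {f : X ⟶ Y} {g : Y ⟶ Z} {δ : Z ⟶ X⟦(1 : ℤ)⟧}
    (h : Triangle.mk f g δ ∈ distTriang T) : Ex (Sf K) (frM K g) (frM K δ) :=
  ex_of_dist (rot_of_distTriang _ h)

theorem ex_of_dist₃ {X Y Z : T} {f : X ⟶ Y} {g : Y ⟶ Z} {δ : Z ⟶ X⟦(1 : ℤ)⟧}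
    (h : Triangle.mk f g δ ∈ distTriang T) :
    Ex (Sf K) (frM K δ) (frM K (-(f⟦(1 : ℤ)⟧'))) :=
  ex_of_dist (rot_of_distTriang _ (rot_of_distTriang _ h))

/-! ### Right multiplication -/

theorem unit_whiskerRight (X Z : T) :
    FM.unit K X ▷ Z ≫ (α_ K X Z).hom = FM.unit K (X ⊗ Z) := by
  simp only [FM.unit]
  monoidal

/-- right multiplication by `Z` on free modules -/
def rtF (K : T) [MonObj K] (Z : T) : FM K ⥤ FM K where
  obj X := FM.of (X.obj ⊗ Z)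
  map {X Y} f := FM.Hom.mk (X := FM.of (X.obj ⊗ Z)) (Y := FM.of (Y.obj ⊗ Z))
    (FM.Hom.hom f ▷ Z ≫ (α_ K Y.obj Z).hom)
  map_id X := FM.hom_ext (unit_whiskerRight X.obj Z)
  map_comp {X Y W} f g := by
    apply FM.hom_ext
    change (FM.Hom.hom f ≫ FM.bind (FM.Hom.hom g)) ▷ Z ≫ (α_ K W.obj Z).hom =
      (FM.Hom.hom f ▷ Z ≫ (α_ K Y.obj Z).hom) ≫
        FM.bind (FM.Hom.hom g ▷ Z ≫ (α_ K W.obj Z).hom)
    rw [bind_whiskerRight]
    simp

theorem rtF_map_hom (Z : T) {X Y : FM K} (f : X ⟶ Y) :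
    FM.Hom.hom ((rtF K Z).map f) = FM.Hom.hom f ▷ Z ≫ (α_ K Y.obj Z).hom := rfl

instance (Z : T) : (rtF K Z).Additive where
  map_add {X Y f g} := by
    apply FM.hom_ext
    change (FM.Hom.hom f + FM.Hom.hom g) ▷ Z ≫ (α_ K Y.obj Z).hom =
      FM.Hom.hom f ▷ Z ≫ (α_ K Y.obj Z).hom + FM.Hom.hom g ▷ Z ≫ (α_ K Y.obj Z).hom
    rw [MonoidalPreadditive.add_whiskerRight, Preadditive.add_comp]

theorem rtF_faithful (Z : T) [IsInv Z] : (rtF K Z).Faithful where
  map_injective {X Y f g} h := by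
    apply FM.hom_ext
    have h1 : FM.Hom.hom f ▷ Z ≫ (α_ K Y.obj Z).hom = FM.Hom.hom g ▷ Z ≫ (α_ K Y.obj Z).hom :=
      congrArg FM.Hom.hom h
    exact whiskerRight_inj Z ((cancel_mono _).1 h1)

theorem rtF_full (Z : T) [IsInv Z] : (rtF K Z).Full where
  map_surjective {X Y} f := by
    let f' : X.obj ⊗ Z ⟶ K ⊗ (Y.obj ⊗ Z) := FM.Hom.hom f
    obtain ⟨g, hg⟩ := whiskerRight_surj Z (f' ≫ (α_ K Y.obj Z).inv)
    refine ⟨FM.Hom.mk g, FM.hom_ext ?_⟩
    change g ▷ Z ≫ (α_ K Y.obj Z).hom = f'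
    rw [hg, Category.assoc, Iso.inv_hom_id, Category.comp_id]

section basis

variable {X Y : T} {ι : Type} [Fintype ι]

/-- the basis of an isomorphic object -/
noncomputable def KBasis.ofIso (b : KBasis K X ι) (α : X ≅ Y) : KBasis K Y ι :=
  KBasis.ofIsBas (b.isBas.of_iso ((FM.free K).mapIso α))

@[simp] theorem KBasis.ofIso_e (b : KBasis K X ι) (α : X ≅ Y) : (b.ofIso α).e = b.e := rfl

/-- the basis of an isomorphic free module -/
noncomputable def KBasis.ofLinIso (b : KBasis K X ι) (α : FM.of (R := K) X ≅ FM.of Y) :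
    KBasis K Y ι :=
  KBasis.ofIsBas (b.isBas.of_iso α)

@[simp] theorem KBasis.ofLinIso_e (b : KBasis K X ι) (α : FM.of (R := K) X ≅ FM.of Y) :
    (b.ofLinIso α).e = b.e := rfl

/-- the basis of `X ⊗ 𝟙⟦m⟧` -/
noncomputable def KBasis.tensorSphere (b : KBasis K X ι) (m : ℤ) :
    KBasis K (X ⊗ (𝟙_ T)⟦m⟧) ι :=
  haveI := isInv_sph (T := T) m
  haveI := rtF_full (K := K) ((𝟙_ T)⟦m⟧)
  haveI := rtF_faithful (K := K) ((𝟙_ T)⟦m⟧)
  KBasis.ofIsBas (b.isBas.map (rtF K ((𝟙_ T)⟦m⟧)) m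
    fun j => ((FM.free K).mapIso (sh2 j m (j + m) rfl)).symm)

@[simp] theorem KBasis.tensorSphere_e (b : KBasis K X ι) (m : ℤ) :
    (b.tensorSphere m).e = fun i => b.e i + m := rfl

/-- the basis of the shift -/
noncomputable def KBasis.shift (b : KBasis K X ι) (m : ℤ) : KBasis K (X⟦m⟧) ι :=
  (b.tensorSphere m).ofIso (Vale.Agent.P251.S.tensorSph m X)

@[simp] theorem KBasis.shift_e (b : KBasis K X ι) (m : ℤ) :
    (b.shift m).e = fun i => b.e i + m := rfl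

theorem IsBas.reindex {C : Type*} [Category* C] [Preadditive C] {S : ℤ → C} {A : C} {κ : Type}
    [Fintype κ] {e : ι → ℤ} {x : ∀ i, S (e i) ⟶ A} (h : IsBas S e x) (σ : κ ≃ ι) :
    IsBas S (fun k => e (σ k)) (fun k => x (σ k)) := by
  intro j
  have h1 : (fun c : (∀ i, S j ⟶ S (e i)) => ∑ i, c i ≫ x i) =
      (fun c : (∀ k, S j ⟶ S (e (σ k))) => ∑ k, c k ≫ x (σ k)) ∘
        (Equiv.piCongrLeft' (fun i => S j ⟶ S (e i)) σ.symm) := by
    funext c
    exact (Equiv.sum_comp σ fun i => c i ≫ x i).symm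
  have h2 := h j
  rw [h1, Equiv.bijective_comp] at h2
  exact h2

/-- change of the index set -/
noncomputable def KBasis.reindex {κ : Type} [Fintype κ] (b : KBasis K X ι) (σ : κ ≃ ι) :
    KBasis K X κ :=
  KBasis.ofIsBas (b.isBas.reindex σ)

@[simp] theorem KBasis.reindex_e {κ : Type} [Fintype κ] (b : KBasis K X ι) (σ : κ ≃ ι) :
    (b.reindex σ).e = fun k => b.e (σ k) := rfl

theorem isBas_unit {C : Type*} [Category* C] [Preadditive C] (S : ℤ → C) (j : ℤ) :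
    IsBas S (fun _ : Unit => j) (fun _ => 𝟙 (S j)) := by
  intro k
  constructor
  · intro c c' hc
    funext i
    simpa using hc
  · intro y
    exact ⟨fun _ => y, by simp⟩

variable (K) in
/-- the basis of a sphere -/
noncomputable def KBasis.sphere (j : ℤ) : KBasis K ((𝟙_ T)⟦j⟧) Unit :=
  KBasis.ofIsBas (isBas_unit (Sf K) j)

@[simp] theorem KBasis.sphere_e (j : ℤ) : (KBasis.sphere K j).e = fun _ => j := rfl

variable (K) in
/-- the basis of the unit -/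
noncomputable def KBasis.unit : KBasis K (𝟙_ T) Unit :=
  (KBasis.sphere K 0).ofIso ((shiftFunctorZero T ℤ).app _)

@[simp] theorem KBasis.unit_e : (KBasis.unit K).e = fun _ => 0 := rfl

/-- the empty basis -/
noncomputable def KBasis.empty [IsEmpty ι] (h : ∀ (j : ℤ) (f : (𝟙_ T)⟦j⟧ ⟶ K ⊗ X), f = 0) :
    KBasis K X ι where
  e i := isEmptyElim i
  x i := isEmptyElim i
  bij j := by
    constructor
    · intro c c' _
      exact Subsingleton.elim _ _
    · intro y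
      exact ⟨fun i => isEmptyElim i, by rw [h j y]; simp⟩

end basis

end Vale.Agent.P241.KR
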